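import Mathlib

/-!
P300, block FIN: the local pieces of the covering `U_S → U` over a node region.

`R` is an open region of `ℂ × ℂ` (coordinates `(u, v)`), `pr : US → U` a local homeomorphism,
`kap` embeds the punctured part of `R` in `U`, and `L z w s` are the lifts over the exponential
chart with commuting monodromies `a`, `b` (permutations of the discrete fibre `S`).
If the stabiliser of `s` in `ℤ²` is `pℤ × qℤ`, then `theta L p q s (r, t) = L (p log r) (q log t) s`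
is an open embedding of `{(r, t) | (r^p, t^q) ∈ R, r t ≠ 0}`.
-/

open Set Topology Filter Complex

namespace Vale.Agent.P300.H753

/-- The exponential chart of the punctured part of `R`. -/
def Rt (R : Set (ℂ × ℂ)) : Set (ℂ × ℂ) := {z | (exp z.1, exp z.2) ∈ R}

/-- The punctured part of `R`. -/
def Rp (R : Set (ℂ × ℂ)) : Set (ℂ × ℂ) := {z | z ∈ R ∧ z.1 ≠ 0 ∧ z.2 ≠ 0}

/-- The power map `(r, t) ↦ (r ^ p, t ^ q)`. -/
def pw (p q : ℕ) (x : ℂ × ℂ) : ℂ × ℂ := (x.1 ^ p, x.2 ^ q)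

/-- The domain of the chart: `(r ^ p, t ^ q) ∈ R`. -/
def Om (R : Set (ℂ × ℂ)) (p q : ℕ) : Set (ℂ × ℂ) := {x | pw p q x ∈ R}

/-- The punctured part of the domain. -/
def Omp (R : Set (ℂ × ℂ)) (p q : ℕ) : Set (ℂ × ℂ) := {x | x ∈ Om R p q ∧ x.1 ≠ 0 ∧ x.2 ≠ 0}

/-- Data of the lifts over a node region. -/
structure Node (R : Set (ℂ × ℂ)) {US U S : Type*} [TopologicalSpace US] [TopologicalSpace U]
    (pr : US → U) (kap : ℂ × ℂ → U) (a b : Equiv.Perm S) (L : ℂ → ℂ → S → US) : Prop where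
  opR : IsOpen R
  kinj : InjOn kap (Rp R)
  kopen : ∀ V ⊆ Rp R, IsOpen V → IsOpen (kap '' V)
  loc : IsLocalHomeomorph pr
  comm : Commute a b
  Lcont : ∀ s, ContinuousOn (fun z : ℂ × ℂ => L z.1 z.2 s) (Rt R)
  Lpr : ∀ z ∈ Rt R, ∀ s, pr (L z.1 z.2 s) = kap (exp z.1, exp z.2)
  La : ∀ z ∈ Rt R, ∀ s, L (z.1 + 2 * Real.pi * I) z.2 s = L z.1 z.2 (a s)
  Lb : ∀ z ∈ Rt R, ∀ s, L z.1 (z.2 + 2 * Real.pi * I) s = L z.1 z.2 (b s)
  Linj : ∀ z ∈ Rt R, Function.Injective (L z.1 z.2)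
  Lsurj : ∀ z ∈ Rt R, ∀ y, pr y = kap (exp z.1, exp z.2) → ∃ s, L z.1 z.2 s = y

/-- The stabiliser of `s` in `ℤ²` is `pℤ × qℤ`. -/
structure Ord {S : Type*} (a b : Equiv.Perm S) (s : S) (p q : ℕ) : Prop where
  p0 : 0 < p
  q0 : 0 < q
  iff : ∀ k l : ℤ, (a ^ k * b ^ l) s = s ↔ (p : ℤ) ∣ k ∧ (q : ℤ) ∣ l

/-- The chart of the piece of `s`. -/
noncomputable def theta {US S : Type*} (L : ℂ → ℂ → S → US) (p q : ℕ) (s : S) (x : ℂ × ℂ) : US :=
  L (p * log x.1) (q * log x.2) s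

theorem isOpen_ne_ne : IsOpen {x : ℂ × ℂ | x.1 ≠ 0 ∧ x.2 ≠ 0} :=
  (isOpen_ne_fun continuous_fst continuous_const).inter
    (isOpen_ne_fun continuous_snd continuous_const)

theorem continuous_pw (p q : ℕ) : Continuous (pw p q) := by
  unfold pw; fun_prop

theorem isOpen_Om {R : Set (ℂ × ℂ)} (hR : IsOpen R) (p q : ℕ) : IsOpen (Om R p q) :=
  hR.preimage (continuous_pw p q)

theorem isOpen_Omp {R : Set (ℂ × ℂ)} (hR : IsOpen R) (p q : ℕ) : IsOpen (Omp R p q) :=
  (isOpen_Om hR p q).inter isOpen_ne_ne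

theorem isOpen_Rp {R : Set (ℂ × ℂ)} (hR : IsOpen R) : IsOpen (Rp R) :=
  hR.inter isOpen_ne_ne

theorem pw_mem_Rp {R : Set (ℂ × ℂ)} {p q : ℕ} {x : ℂ × ℂ} (hx : x ∈ Omp R p q) :
    pw p q x ∈ Rp R :=
  ⟨hx.1, pow_ne_zero _ hx.2.1, pow_ne_zero _ hx.2.2⟩

theorem pw_exp (p q : ℕ) (z w : ℂ) : pw p q (exp z, exp w) = (exp (p * z), exp (q * w)) := by
  simp [pw, ← Complex.exp_nat_mul]

theorem exp_mem_Omp_iff {R : Set (ℂ × ℂ)} {p q : ℕ} {z w : ℂ} :
    (exp z, exp w) ∈ Omp R p q ↔ ((p : ℂ) * z, (q : ℂ) * w) ∈ Rt R := by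
  simp [Omp, Om, Rt, pw_exp, exp_ne_zero]

theorem map_pow_nhds {p : ℕ} (hp : 0 < p) {x : ℂ} (hx : x ≠ 0) :
    map (fun z : ℂ => z ^ p) (𝓝 x) = 𝓝 (x ^ p) :=
  (hasStrictDerivAt_pow p x).map_nhds_eq (by
    simp [hp.ne', hx])

theorem map_pw_nhds {p q : ℕ} (hp : 0 < p) (hq : 0 < q) {x : ℂ × ℂ} (h1 : x.1 ≠ 0)
    (h2 : x.2 ≠ 0) : map (pw p q) (𝓝 x) = 𝓝 (pw p q x) := by
  obtain ⟨x1, x2⟩ := x
  have e : pw p q = Prod.map (fun z : ℂ => z ^ p) (fun z : ℂ => z ^ q) := rfl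
  rw [e, Prod.map_apply, nhds_prod_eq, nhds_prod_eq, ← Filter.prod_map_map_eq',
    map_pow_nhds hp h1, map_pow_nhds hq h2]

theorem isOpen_pw_image {p q : ℕ} (hp : 0 < p) (hq : 0 < q) {V : Set (ℂ × ℂ)} (hV : IsOpen V)
    (h0 : ∀ x ∈ V, x.1 ≠ 0 ∧ x.2 ≠ 0) : IsOpen (pw p q '' V) := by
  rw [isOpen_iff_mem_nhds]
  rintro _ ⟨x, hx, rfl⟩
  rw [← map_pw_nhds hp hq (h0 x hx).1 (h0 x hx).2]
  exact image_mem_map (hV.mem_nhds hx)

variable {R : Set (ℂ × ℂ)} {US U S : Type*} [TopologicalSpace US] [TopologicalSpace U]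
  {pr : US → U} {kap : ℂ × ℂ → U} {a b : Equiv.Perm S} {L : ℂ → ℂ → S → US}

theorem exp_add_two_pi (z : ℂ) (k : ℤ) : exp (z + 2 * Real.pi * I * k) = exp z := by
  rw [Complex.exp_add]
  have : exp (2 * Real.pi * I * k) = 1 := by
    rw [Complex.exp_eq_one_iff]; exact ⟨k, by ring⟩
  rw [this, mul_one]

theorem Rt_shift {z : ℂ × ℂ} (k l : ℤ) :
    (z.1 + 2 * Real.pi * I * k, z.2 + 2 * Real.pi * I * l) ∈ Rt R ↔ z ∈ Rt R := by
  simp only [Rt, mem_ofPred_eq, exp_add_two_pi]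

namespace Node

variable (H : Node R pr kap a b L)
include H

theorem La_zpow {z : ℂ × ℂ} (hz : z ∈ Rt R) (k : ℤ) : ∀ s,
    L (z.1 + 2 * Real.pi * I * k) z.2 s = L z.1 z.2 ((a ^ k) s) := by
  have hm : ∀ k : ℤ, (z.1 + 2 * Real.pi * I * k, z.2) ∈ Rt R := by
    intro k
    have := (Rt_shift (R := R) (z := z) k 0).2 hz
    simpa using this
  induction k using Int.induction_on with
  | zero => intro s; simp
  | succ k ih =>
    intro s
    have h := H.La _ (hm k) s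
    simp only at h
    have e : z.1 + 2 * Real.pi * I * ((k : ℤ) + 1 : ℤ) =
        z.1 + 2 * Real.pi * I * (k : ℤ) + 2 * Real.pi * I := by push_cast; ring
    rw [e, h, ih, zpow_add_one]; rfl
  | pred k ih =>
    intro s
    have h := H.La _ (hm (-k - 1)) (a⁻¹ s)
    simp only at h
    have e : z.1 + 2 * Real.pi * I * ((-k - 1 : ℤ) : ℂ) + 2 * Real.pi * I =
        z.1 + 2 * Real.pi * I * ((-k : ℤ) : ℂ) := by push_cast; ring
    rw [e, ih] at h
    have e2 : a (a⁻¹ s) = s := by simp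
    rw [e2] at h
    rw [← h, zpow_sub_one]; rfl

theorem Lb_zpow {z : ℂ × ℂ} (hz : z ∈ Rt R) (k : ℤ) : ∀ s,
    L z.1 (z.2 + 2 * Real.pi * I * k) s = L z.1 z.2 ((b ^ k) s) := by
  have hm : ∀ k : ℤ, (z.1, z.2 + 2 * Real.pi * I * k) ∈ Rt R := by
    intro k
    have := (Rt_shift (R := R) (z := z) 0 k).2 hz
    simpa using this
  induction k using Int.induction_on with
  | zero => intro s; simp
  | succ k ih =>
    intro s
    have h := H.Lb _ (hm k) s
    simp only at h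
    have e : z.2 + 2 * Real.pi * I * ((k : ℤ) + 1 : ℤ) =
        z.2 + 2 * Real.pi * I * (k : ℤ) + 2 * Real.pi * I := by push_cast; ring
    rw [e, h, ih, zpow_add_one]; rfl
  | pred k ih =>
    intro s
    have h := H.Lb _ (hm (-k - 1)) (b⁻¹ s)
    simp only at h
    have e : z.2 + 2 * Real.pi * I * ((-k - 1 : ℤ) : ℂ) + 2 * Real.pi * I =
        z.2 + 2 * Real.pi * I * ((-k : ℤ) : ℂ) := by push_cast; ring
    rw [e, ih] at h
    have e2 : b (b⁻¹ s) = s := by simp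
    rw [e2] at h
    rw [← h, zpow_sub_one]; rfl

/-- The full deck rule. -/
theorem L_shift {z : ℂ × ℂ} (hz : z ∈ Rt R) (k l : ℤ) (s : S) :
    L (z.1 + 2 * Real.pi * I * k) (z.2 + 2 * Real.pi * I * l) s =
      L z.1 z.2 ((a ^ k * b ^ l) s) := by
  have hm : (z.1 + 2 * Real.pi * I * k, z.2) ∈ Rt R := by
    have := (Rt_shift (R := R) (z := z) k 0).2 hz
    simpa using this
  have h1 := H.Lb_zpow hm l s
  simp only at h1
  rw [h1, H.La_zpow hz k]; rfl

theorem L_eq_iff {z w : ℂ × ℂ} (hz : z ∈ Rt R) (hw : w ∈ Rt R) (s s' : S) :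
    L z.1 z.2 s = L w.1 w.2 s' ↔ ∃ k l : ℤ, z.1 = w.1 + 2 * Real.pi * I * k ∧
      z.2 = w.2 + 2 * Real.pi * I * l ∧ s' = (a ^ k * b ^ l) s := by
  constructor
  · intro h
    have h1 : kap (exp z.1, exp z.2) = kap (exp w.1, exp w.2) := by
      rw [← H.Lpr z hz s, ← H.Lpr w hw s', h]
    have h2 := H.kinj ⟨hz, exp_ne_zero _, exp_ne_zero _⟩ ⟨hw, exp_ne_zero _, exp_ne_zero _⟩ h1
    simp only [Prod.mk.injEq, Complex.exp_eq_exp_iff_exists_int] at h2
    obtain ⟨⟨k, hk⟩, l, hl⟩ := h2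
    have hk' : z.1 = w.1 + 2 * Real.pi * I * k := by rw [hk]; ring
    have hl' : z.2 = w.2 + 2 * Real.pi * I * l := by rw [hl]; ring
    refine ⟨k, l, hk', hl', ?_⟩
    have h3 := H.L_shift hw k l s
    rw [← hk', ← hl', h] at h3
    exact H.Linj w hw h3
  · rintro ⟨k, l, h1, h2, rfl⟩
    rw [← H.L_shift hw k l s, ← h1, ← h2]

variable {p q : ℕ} {s : S} (hs : Ord a b s p q)
include hs

/-- `theta` does not depend on the branch of the logarithms. -/
theorem theta_exp {z w : ℂ} (h : (exp z, exp w) ∈ Omp R p q) :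
    theta L p q s (exp z, exp w) = L (p * z) (q * w) s := by
  have hz : ((p : ℂ) * z, (q : ℂ) * w) ∈ Rt R := exp_mem_Omp_iff.1 h
  have e1 : exp (log (exp z)) = exp z := Complex.exp_log (exp_ne_zero z)
  have e2 : exp (log (exp w)) = exp w := Complex.exp_log (exp_ne_zero w)
  obtain ⟨k, hk⟩ := Complex.exp_eq_exp_iff_exists_int.1 e1
  obtain ⟨l, hl⟩ := Complex.exp_eq_exp_iff_exists_int.1 e2
  have h3 := H.L_shift hz ((p : ℤ) * k) ((q : ℤ) * l) s
  rw [(hs.iff _ _).2 ⟨dvd_mul_right _ _, dvd_mul_right _ _⟩] at h3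
  simp only at h3
  rw [← h3]
  unfold theta
  simp only
  rw [hk, hl]
  congr 1
  · push_cast; ring
  · push_cast; ring

omit hs in
theorem pr_theta {x : ℂ × ℂ} (hx : x ∈ Omp R p q) :
    pr (theta L p q s x) = kap (pw p q x) := by
  have e : x = (exp (log x.1), exp (log x.2)) := by
    rw [Complex.exp_log hx.2.1, Complex.exp_log hx.2.2]
  have hm : ((p : ℂ) * log x.1, (q : ℂ) * log x.2) ∈ Rt R := by
    rw [← exp_mem_Omp_iff, ← e]; exact hx
  have h1 := H.Lpr _ hm s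
  simp only at h1
  unfold theta
  rw [h1]
  conv_rhs => rw [e, pw_exp]

theorem continuousOn_theta : ContinuousOn (theta L p q s) (Omp R p q) := by
  intro x hx
  refine ContinuousAt.continuousWithinAt ?_
  obtain ⟨hO, h1, h2⟩ := hx
  set g : ℂ × ℂ → ℂ × ℂ := fun y => (log x.1 + log (y.1 / x.1), log x.2 + log (y.2 / x.2)) with hg
  have hgc : ContinuousAt g x := by
    have c1 : ContinuousAt (fun y : ℂ × ℂ => log (y.1 / x.1)) x := by
      refine ContinuousAt.clog (by fun_prop) ?_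
      rw [div_self h1]; exact Complex.one_mem_slitPlane
    have c2 : ContinuousAt (fun y : ℂ × ℂ => log (y.2 / x.2)) x := by
      refine ContinuousAt.clog (by fun_prop) ?_
      rw [div_self h2]; exact Complex.one_mem_slitPlane
    exact ((continuousAt_const.add c1).prodMk (continuousAt_const.add c2))
  have hge : ∀ y ∈ Omp R p q, (exp (g y).1, exp (g y).2) = y := by
    intro y hy
    simp only [hg, Complex.exp_add]
    rw [Complex.exp_log h1, Complex.exp_log h2,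
      Complex.exp_log (div_ne_zero hy.2.1 h1), Complex.exp_log (div_ne_zero hy.2.2 h2),
      mul_div_cancel₀ _ h1, mul_div_cancel₀ _ h2]
  have heq : theta L p q s =ᶠ[𝓝 x]
      fun y => L ((p : ℂ) * (g y).1) ((q : ℂ) * (g y).2) s := by
    filter_upwards [(isOpen_Omp H.opR p q).mem_nhds ⟨hO, h1, h2⟩] with y hy
    have := H.theta_exp hs (z := (g y).1) (w := (g y).2) (by rw [hge y hy]; exact hy)
    rw [hge y hy] at this
    exact this
  have hmem : ((p : ℂ) * (g x).1, (q : ℂ) * (g x).2) ∈ Rt R := by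
    rw [← exp_mem_Omp_iff, hge x ⟨hO, h1, h2⟩]; exact ⟨hO, h1, h2⟩
  have hopen : IsOpen (Rt R) := H.opR.preimage (by fun_prop)
  have c3 : ContinuousAt (fun z : ℂ × ℂ => L z.1 z.2 s) ((p : ℂ) * (g x).1, (q : ℂ) * (g x).2) :=
    (H.Lcont s).continuousAt (hopen.mem_nhds hmem)
  have c4 : ContinuousAt (fun y => ((p : ℂ) * (g y).1, (q : ℂ) * (g y).2)) x :=
    (continuousAt_const.mul hgc.fst).prodMk (continuousAt_const.mul hgc.snd)
  exact (ContinuousAt.comp' (f := fun y => ((p : ℂ) * (g y).1, (q : ℂ) * (g y).2))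
    (g := fun z : ℂ × ℂ => L z.1 z.2 s) c3 c4).congr heq.symm

theorem injOn_theta : InjOn (theta L p q s) (Omp R p q) := by
  intro x hx y hy hxy
  have ex : x = (exp (log x.1), exp (log x.2)) := by
    rw [Complex.exp_log hx.2.1, Complex.exp_log hx.2.2]
  have ey : y = (exp (log y.1), exp (log y.2)) := by
    rw [Complex.exp_log hy.2.1, Complex.exp_log hy.2.2]
  have hmx : ((p : ℂ) * log x.1, (q : ℂ) * log x.2) ∈ Rt R := by
    rw [← exp_mem_Omp_iff, ← ex]; exact hx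
  have hmy : ((p : ℂ) * log y.1, (q : ℂ) * log y.2) ∈ Rt R := by
    rw [← exp_mem_Omp_iff, ← ey]; exact hy
  obtain ⟨k, l, hk, hl, h3⟩ := (H.L_eq_iff hmx hmy s s).1 hxy
  obtain ⟨⟨k', hk'⟩, l', hl'⟩ := (hs.iff k l).1 h3.symm
  simp only at hk hl
  have hp : (p : ℂ) ≠ 0 := by exact_mod_cast hs.p0.ne'
  have hq : (q : ℂ) ≠ 0 := by exact_mod_cast hs.q0.ne'
  have h1 : log x.1 = log y.1 + 2 * Real.pi * I * k' := by
    apply mul_left_cancel₀ hp
    rw [hk, hk']; push_cast; ring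
  have h2 : log x.2 = log y.2 + 2 * Real.pi * I * l' := by
    apply mul_left_cancel₀ hq
    rw [hl, hl']; push_cast; ring
  rw [ex, ey, h1, h2, exp_add_two_pi, exp_add_two_pi]

theorem isOpen_theta_image {V : Set (ℂ × ℂ)} (hV : IsOpen V) (hVs : V ⊆ Omp R p q) :
    IsOpen (theta L p q s '' V) := by
  rw [isOpen_iff_mem_nhds]
  rintro _ ⟨x, hx, rfl⟩
  obtain ⟨e, hxe, he⟩ := H.loc (theta L p q s x)
  have hc := (H.continuousOn_theta hs).mono hVs
  have hV' : IsOpen (V ∩ theta L p q s ⁻¹' e.source) := hc.isOpen_inter_preimage hV e.open_source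
  set V' := V ∩ theta L p q s ⁻¹' e.source with hV'def
  have hV's : V' ⊆ Omp R p q := fun y hy => hVs hy.1
  have ho : IsOpen (kap '' (pw p q '' V')) := by
    refine H.kopen _ ?_ (isOpen_pw_image hs.p0 hs.q0 hV' fun y hy => (hV's hy).2)
    rintro _ ⟨y, hy, rfl⟩
    exact pw_mem_Rp (hV's hy)
  have heq : e.source ∩ pr ⁻¹' (kap '' (pw p q '' V')) ⊆ theta L p q s '' V := by
    rintro y ⟨hy1, _, ⟨v, hv, rfl⟩, hv2⟩
    refine ⟨v, hv.1, ?_⟩
    have h1 : pr (theta L p q s v) = pr y := by rw [H.pr_theta (hV's hv), hv2]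
    rw [he] at h1
    exact e.injOn hv.2 hy1 h1
  refine mem_of_superset (IsOpen.mem_nhds ?_ ?_) heq
  · rw [he]
    exact e.continuousOn.isOpen_inter_preimage e.open_source ho
  · exact ⟨hxe, _, ⟨x, ⟨hx, hxe⟩, rfl⟩, (H.pr_theta (hVs hx)).symm⟩

/-- The chart is an open embedding of the punctured domain. -/
theorem isOpenEmbedding_theta :
    IsOpenEmbedding (fun x : Omp R p q => theta L p q s (x : ℂ × ℂ)) := by
  refine IsOpenEmbedding.of_continuous_injective_isOpenMap ?_ ?_ ?_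
  · exact continuousOn_iff_continuous_domRestrict.1 (H.continuousOn_theta hs)
  · intro x y h
    exact Subtype.ext (H.injOn_theta hs x.2 y.2 h)
  · intro W hW
    have h1 : IsOpen ((↑) '' W : Set (ℂ × ℂ)) :=
      (isOpen_Omp H.opR p q).isOpenMap_subtype_val W hW
    have h2 := H.isOpen_theta_image hs h1 (by rintro _ ⟨y, _, rfl⟩; exact y.2)
    rwa [image_image] at h2

/-- The range is the orbit piece. -/
theorem mem_range_theta_iff {z : ℂ × ℂ} (hz : z ∈ Rt R) (s' : S) :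
    L z.1 z.2 s' ∈ theta L p q s '' Omp R p q ↔ ∃ k l : ℤ, s' = (a ^ k * b ^ l) s := by
  have hp : (p : ℂ) ≠ 0 := by exact_mod_cast hs.p0.ne'
  have hq : (q : ℂ) ≠ 0 := by exact_mod_cast hs.q0.ne'
  constructor
  · rintro ⟨x, hx, hxe⟩
    have ex : x = (exp (log x.1), exp (log x.2)) := by
      rw [Complex.exp_log hx.2.1, Complex.exp_log hx.2.2]
    have hmx : ((p : ℂ) * log x.1, (q : ℂ) * log x.2) ∈ Rt R := by
      rw [← exp_mem_Omp_iff, ← ex]; exact hx
    obtain ⟨k, l, _, _, h⟩ := (H.L_eq_iff hmx hz s s').1 hxe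
    exact ⟨k, l, h⟩
  · rintro ⟨k, l, rfl⟩
    have e1 : (p : ℂ) * ((z.1 + 2 * Real.pi * I * k) / p) = z.1 + 2 * Real.pi * I * k := by
      field_simp
    have e2 : (q : ℂ) * ((z.2 + 2 * Real.pi * I * l) / q) = z.2 + 2 * Real.pi * I * l := by
      field_simp
    have hm : (exp ((z.1 + 2 * Real.pi * I * k) / p), exp ((z.2 + 2 * Real.pi * I * l) / q)) ∈
        Omp R p q := by
      rw [exp_mem_Omp_iff, e1, e2]
      exact (Rt_shift k l).2 hz
    refine ⟨_, hm, ?_⟩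
    rw [H.theta_exp hs hm, e1, e2, H.L_shift hz]

/-- Rotation rule: the charts of the points of one orbit differ by roots of unity. -/
theorem theta_orbit {s' : S} (k l : ℤ) (h : s' = (a ^ k * b ^ l) s)
    {x : ℂ × ℂ} (hx : x ∈ Omp R p q) :
    theta L p q s' x =
      theta L p q s (exp (2 * Real.pi * I * k / p) * x.1, exp (2 * Real.pi * I * l / q) * x.2) := by
  have hp : (p : ℂ) ≠ 0 := by exact_mod_cast hs.p0.ne'
  have hq : (q : ℂ) ≠ 0 := by exact_mod_cast hs.q0.ne'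
  have ex : x = (exp (log x.1), exp (log x.2)) := by
    rw [Complex.exp_log hx.2.1, Complex.exp_log hx.2.2]
  have hmx : ((p : ℂ) * log x.1, (q : ℂ) * log x.2) ∈ Rt R := by
    rw [← exp_mem_Omp_iff, ← ex]; exact hx
  have e1 : exp (2 * Real.pi * I * k / p) * x.1 = exp (2 * Real.pi * I * k / p + log x.1) := by
    rw [Complex.exp_add, Complex.exp_log hx.2.1]
  have e2 : exp (2 * Real.pi * I * l / q) * x.2 = exp (2 * Real.pi * I * l / q + log x.2) := by
    rw [Complex.exp_add, Complex.exp_log hx.2.2]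
  have e3 : (p : ℂ) * (2 * Real.pi * I * k / p + log x.1) = p * log x.1 + 2 * Real.pi * I * k := by
    field_simp; ring
  have e4 : (q : ℂ) * (2 * Real.pi * I * l / q + log x.2) = q * log x.2 + 2 * Real.pi * I * l := by
    field_simp; ring
  have hm : (exp (2 * Real.pi * I * k / p + log x.1), exp (2 * Real.pi * I * l / q + log x.2)) ∈
      Omp R p q := by
    rw [exp_mem_Omp_iff, e3, e4]
    exact (Rt_shift (z := ((p : ℂ) * log x.1, (q : ℂ) * log x.2)) k l).2 hmx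
  rw [e1, e2, H.theta_exp hs hm, e3, e4]
  have h5 := H.L_shift hmx k l s
  simp only at h5
  rw [h5, ← h]
  rfl

end Node

/-- The order of all points of an orbit is the same. -/
theorem Ord.orbit {a b : Equiv.Perm S} (hab : Commute a b) {s : S} {p q : ℕ}
    (hs : Ord a b s p q) (k l : ℤ) : Ord a b ((a ^ k * b ^ l) s) p q := by
  refine ⟨hs.p0, hs.q0, fun m n => ?_⟩
  rw [← hs.iff m n]
  have hc : Commute (a ^ m * b ^ n) (a ^ k * b ^ l) := by
    have h1 : Commute (a ^ m) (a ^ k * b ^ l) :=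
      ((Commute.refl a).zpow_zpow m k).mul_right (hab.zpow_zpow m l)
    have h2 : Commute (b ^ n) (a ^ k * b ^ l) :=
      (hab.symm.zpow_zpow n k).mul_right ((Commute.refl b).zpow_zpow n l)
    exact h1.mul_left h2
  have : (a ^ m * b ^ n) ((a ^ k * b ^ l) s) = (a ^ k * b ^ l) ((a ^ m * b ^ n) s) := by
    rw [← Equiv.Perm.mul_apply, hc.eq, Equiv.Perm.mul_apply]
  rw [this]
  exact (a ^ k * b ^ l).injective.eq_iff

namespace Node

variable (H : Node R pr kap a b L)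
include H

/-- Pieces of the same orbit coincide. -/
theorem image_theta_orbit {p q : ℕ} {s : S} (hs : Ord a b s p q) (k l : ℤ) :
    theta L p q ((a ^ k * b ^ l) s) '' Omp R p q = theta L p q s '' Omp R p q := by
  have hs' := hs.orbit H.comm k l
  have key : ∀ {t t' : S} (ht : Ord a b t p q),
      (∃ k l : ℤ, t' = (a ^ k * b ^ l) t) →
      theta L p q t' '' Omp R p q ⊆ theta L p q t '' Omp R p q := by
    rintro t t' ht ⟨k, l, h⟩ _ ⟨x, hx, rfl⟩
    have ex : x = (exp (log x.1), exp (log x.2)) := by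
      rw [Complex.exp_log hx.2.1, Complex.exp_log hx.2.2]
    have hmx : ((p : ℂ) * log x.1, (q : ℂ) * log x.2) ∈ Rt R := by
      rw [← exp_mem_Omp_iff, ← ex]; exact hx
    exact (H.mem_range_theta_iff ht hmx t').2 ⟨k, l, h⟩
  refine Subset.antisymm (key hs ⟨k, l, rfl⟩) (key hs' ⟨-k, -l, ?_⟩)
  rw [← Equiv.Perm.mul_apply]
  have : a ^ (-k) * b ^ (-l) * (a ^ k * b ^ l) = 1 := by
    have h1 : Commute (b ^ (-l)) (a ^ k) := H.comm.symm.zpow_zpow (-l) k
    rw [mul_assoc, ← mul_assoc (b ^ (-l)), h1.eq, mul_assoc (a ^ k), ← zpow_add, neg_add_cancel,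
      zpow_zero, mul_one, ← zpow_add, neg_add_cancel, zpow_zero]
  rw [this]; rfl

/-- Pieces of different orbits are disjoint. -/
theorem disjoint_image_theta {p q p' q' : ℕ} {s s' : S} (hs : Ord a b s p q)
    (h : ∀ k l : ℤ, s' ≠ (a ^ k * b ^ l) s) :
    Disjoint (theta L p q s '' Omp R p q) (theta L p' q' s' '' Omp R p' q') := by
  rw [Set.disjoint_right]
  rintro _ ⟨x, hx, rfl⟩ hmem
  have ex : x = (exp (log x.1), exp (log x.2)) := by
    rw [Complex.exp_log hx.2.1, Complex.exp_log hx.2.2]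
  have hmx : ((p' : ℂ) * log x.1, (q' : ℂ) * log x.2) ∈ Rt R := by
    rw [← exp_mem_Omp_iff, ← ex]; exact hx
  obtain ⟨k, l, h1⟩ := (H.mem_range_theta_iff hs hmx s').1 hmem
  exact h k l h1

/-- The pieces cover the preimage of the punctured region. -/
theorem preimage_eq_iUnion (p q : S → ℕ) (hs : ∀ s, Ord a b s (p s) (q s)) :
    pr ⁻¹' (kap '' Rp R) = ⋃ s, theta L (p s) (q s) s '' Omp R (p s) (q s) := by
  ext y
  simp only [mem_preimage, mem_iUnion]
  constructor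
  · rintro ⟨x, hx, hxy⟩
    have ex : x = (exp (log x.1), exp (log x.2)) := by
      rw [Complex.exp_log hx.2.1, Complex.exp_log hx.2.2]
    have hm : (log x.1, log x.2) ∈ Rt R := by
      show (exp (log x.1), exp (log x.2)) ∈ R
      rw [← ex]; exact hx.1
    obtain ⟨s, hs1⟩ := H.Lsurj _ hm y (by rw [← hxy]; congr 1)
    refine ⟨s, ?_⟩
    rw [← hs1]
    exact (H.mem_range_theta_iff (hs s) hm s).2 ⟨0, 0, by simp⟩
  · rintro ⟨s, x, hx, rfl⟩
    exact ⟨pw (p s) (q s) x, pw_mem_Rp hx, (H.pr_theta hx).symm⟩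

end Node

/-- The power map is proper. -/
theorem isCompact_preimage_pw {p q : ℕ} (hp : 0 < p) (hq : 0 < q) {K : Set (ℂ × ℂ)}
    (hK : IsCompact K) : IsCompact (pw p q ⁻¹' K) := by
  obtain ⟨C, hC⟩ := hK.isBounded.exists_norm_le
  refine Metric.isCompact_of_isClosed_isBounded (hK.isClosed.preimage (continuous_pw p q)) ?_
  rw [isBounded_iff_forall_norm_le]
  refine ⟨max 1 C, fun x hx => ?_⟩
  have h1 := hC _ hx
  have key : ∀ (n : ℕ), 0 < n → ∀ z : ℂ, ‖z ^ n‖ ≤ C → ‖z‖ ≤ max 1 C := by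
    intro n hn z hz
    rcases le_total ‖z‖ 1 with h | h
    · exact h.trans (le_max_left _ _)
    · refine le_trans ?_ (hz.trans (le_max_right _ _))
      rw [norm_pow]
      exact le_self_pow₀ h hn.ne'
  have h2 : ‖x.1 ^ p‖ ≤ C := (norm_fst_le (pw p q x)).trans h1
  have h3 : ‖x.2 ^ q‖ ≤ C := (norm_snd_le (pw p q x)).trans h1
  rw [Prod.norm_def]
  exact max_le (key p hp _ h2) (key q hq _ h3)

omit [TopologicalSpace US] in
/-- Naturality: a map of coverings compatible with the lifts, orders `p' * i`, `q' * j`. -/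
theorem theta_natural {US' U' S' : Type*} [TopologicalSpace US'] [TopologicalSpace U']
    {pr' : US' → U'} {kap' : ℂ × ℂ → U'} {a' b' : Equiv.Perm S'} {L' : ℂ → ℂ → S' → US'}
    (H' : Node R pr' kap' a' b' L') {F : US → US'} {f : S → S'} {p q p' q' i j : ℕ}
    (hF : ∀ z ∈ Rt R, ∀ s, F (L z.1 z.2 s) = L' z.1 z.2 (f s)) {s : S}
    (hs' : Ord a' b' (f s) p' q') (hp : p = p' * i) (hq : q = q' * j)
    {x : ℂ × ℂ} (hx : x ∈ Omp R p q) :
    F (theta L p q s x) = theta L' p' q' (f s) (pw i j x) := by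
  have ex : x = (exp (log x.1), exp (log x.2)) := by
    rw [Complex.exp_log hx.2.1, Complex.exp_log hx.2.2]
  have hmx : ((p : ℂ) * log x.1, (q : ℂ) * log x.2) ∈ Rt R := by
    rw [← exp_mem_Omp_iff, ← ex]; exact hx
  have e1 : (p : ℂ) * log x.1 = p' * (i * log x.1) := by rw [hp]; push_cast; ring
  have e2 : (q : ℂ) * log x.2 = q' * (j * log x.2) := by rw [hq]; push_cast; ring
  have e3 : pw i j x = (exp (i * log x.1), exp (j * log x.2)) := by
    conv_lhs => rw [ex, pw_exp]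
  have hm : (exp (i * log x.1), exp (j * log x.2)) ∈ Omp R p' q' := by
    rw [exp_mem_Omp_iff, ← e1, ← e2]; exact hmx
  have h1 := hF _ hmx s
  unfold theta at *
  simp only at h1
  rw [h1, e3]
  have h2 := H'.theta_exp hs' hm
  unfold theta at h2
  rw [h2, e1, e2]

end Vale.Agent.P300.H753
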