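import Vale.Agent.P300.H753.Dom

/-!
P300, block FIN, part 3: rotations of the chart domains (change of the representative of an
orbit) and the form of `theta_natural` with equal orders.
-/

open Set Topology Filter Complex

namespace Vale.Agent.P300.H753

/-- The rotation `(r, t) ↦ (e^{2πik/p} r, e^{2πil/q} t)`. -/
noncomputable def rot (p q : ℕ) (k l : ℤ) : ℂ × ℂ ≃ₜ ℂ × ℂ :=
  (Homeomorph.mulLeft₀ (exp (2 * Real.pi * I * k / p)) (exp_ne_zero _)).prodCongr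
    (Homeomorph.mulLeft₀ (exp (2 * Real.pi * I * l / q)) (exp_ne_zero _))

theorem rot_apply (p q : ℕ) (k l : ℤ) (x : ℂ × ℂ) :
    rot p q k l x = (exp (2 * Real.pi * I * k / p) * x.1, exp (2 * Real.pi * I * l / q) * x.2) :=
  rfl

theorem exp_pow_root {p : ℕ} (hp : 0 < p) (k : ℤ) : exp (2 * Real.pi * I * k / p) ^ p = 1 := by
  have hp' : (p : ℂ) ≠ 0 := by exact_mod_cast hp.ne'
  rw [← Complex.exp_nat_mul, Complex.exp_eq_one_iff]
  exact ⟨k, by field_simp⟩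

theorem pw_rot {p q : ℕ} (hp : 0 < p) (hq : 0 < q) (k l : ℤ) (x : ℂ × ℂ) :
    pw p q (rot p q k l x) = pw p q x := by
  simp only [pw, rot_apply, mul_pow, exp_pow_root hp, exp_pow_root hq, one_mul]

theorem rot_mem_Om {R : Set (ℂ × ℂ)} {p q : ℕ} (hp : 0 < p) (hq : 0 < q) (k l : ℤ) {x : ℂ × ℂ} :
    rot p q k l x ∈ Om R p q ↔ x ∈ Om R p q := by
  simp only [Om, mem_ofPred_eq, pw_rot hp hq]

theorem rot_ne {p q : ℕ} (k l : ℤ) {x : ℂ × ℂ} :
    ((rot p q k l x).1 ≠ 0 ∧ (rot p q k l x).2 ≠ 0) ↔ (x.1 ≠ 0 ∧ x.2 ≠ 0) := by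
  simp [rot_apply, exp_ne_zero]

theorem rot_mem_Omp {R : Set (ℂ × ℂ)} {p q : ℕ} (hp : 0 < p) (hq : 0 < q) (k l : ℤ)
    {x : ℂ × ℂ} : rot p q k l x ∈ Omp R p q ↔ x ∈ Omp R p q := by
  show (_ ∈ Om R p q ∧ _) ↔ (_ ∈ Om R p q ∧ _)
  rw [rot_mem_Om hp hq, rot_ne]

/-- The rotation as a homeomorphism of the chart domain. -/
noncomputable def rotOm (R : Set (ℂ × ℂ)) {p q : ℕ} (hp : 0 < p) (hq : 0 < q) (k l : ℤ) :
    Om R p q ≃ₜ Om R p q :=
  (rot p q k l).subtype fun _ => (rot_mem_Om hp hq k l).symm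

theorem coe_rotOm (R : Set (ℂ × ℂ)) {p q : ℕ} (hp : 0 < p) (hq : 0 < q) (k l : ℤ)
    (x : Om R p q) : (rotOm R hp hq k l x : ℂ × ℂ) = rot p q k l x := rfl

variable {R : Set (ℂ × ℂ)} {US U S : Type*} [TopologicalSpace US] [TopologicalSpace U]
  {pr : US → U} {kap : ℂ × ℂ → U} {a b : Equiv.Perm S} {L : ℂ → ℂ → S → US}

theorem Node.theta_rot (H : Node R pr kap a b L) {p q : ℕ} {s : S} (hs : Ord a b s p q) (k l : ℤ)
    {x : ℂ × ℂ} (hx : x ∈ Omp R p q) :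
    theta L p q ((a ^ k * b ^ l) s) x = theta L p q s (rot p q k l x) := by
  rw [H.theta_orbit hs k l rfl hx, rot_apply]

/-- Map of coverings, equal orders, arbitrary representatives. -/
theorem theta_map {US' S' : Type*} {L' : ℂ → ℂ → S' → US'}
    (H : Node R pr kap a b L) {F : US' → US} {f : S' → S} {p q : ℕ}
    (hF : ∀ z ∈ Rt R, ∀ s, F (L' z.1 z.2 s) = L z.1 z.2 (f s)) {s' : S'} {s : S}
    (hs : Ord a b s p q) {k l : ℤ} (h : f s' = (a ^ k * b ^ l) s)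
    {x : ℂ × ℂ} (hx : x ∈ Omp R p q) :
    F (theta L' p q s' x) = theta L p q s (rot p q k l x) := by
  have hmx : ((p : ℂ) * log x.1, (q : ℂ) * log x.2) ∈ Rt R := by
    rw [← exp_mem_Omp_iff, Complex.exp_log hx.2.1, Complex.exp_log hx.2.2]; exact hx
  have h1 := hF _ hmx s'
  rw [← H.theta_rot hs k l hx, ← h]
  exact h1

/-- If `f` is equivariant and injective on the `⟨a, b⟩`-orbit of `s'` then the orders agree. -/
theorem Ord.map {S' : Type*} {a' b' : Equiv.Perm S'} {f : S' → S} (ha : ∀ s, f (a' s) = a (f s))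
    (hb : ∀ s, f (b' s) = b (f s)) {s' : S'} {p q : ℕ} (hs' : Ord a' b' s' p q)
    (hinj : ∀ k l : ℤ, f ((a' ^ k * b' ^ l) s') = f s' → (a' ^ k * b' ^ l) s' = s') :
    Ord a b (f s') p q := by
  have hz : ∀ (a : Equiv.Perm S) (a' : Equiv.Perm S'), (∀ s, f (a' s) = a (f s)) →
      ∀ (k : ℤ) (s : S'), f ((a' ^ k) s) = (a ^ k) (f s) := by
    intro a a' h k
    induction k using Int.induction_on with
    | zero => intro s; simp
    | succ k ih =>
      intro s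
      rw [zpow_add_one, Equiv.Perm.mul_apply, ih, h, zpow_add_one, Equiv.Perm.mul_apply]
    | pred k ih =>
      intro s
      have h2 : f (a'⁻¹ s) = a⁻¹ (f s) := by
        apply a.injective
        rw [← h]; simp
      rw [zpow_sub_one, Equiv.Perm.mul_apply, ih, h2, zpow_sub_one, Equiv.Perm.mul_apply]
  refine ⟨hs'.p0, hs'.q0, fun k l => ?_⟩
  have e : (a ^ k * b ^ l) (f s') = f ((a' ^ k * b' ^ l) s') := by
    rw [Equiv.Perm.mul_apply, Equiv.Perm.mul_apply, hz a a' ha, hz b b' hb]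
  rw [e, ← hs'.iff k l]
  exact ⟨hinj k l, fun h => by rw [h]⟩

end Vale.Agent.P300.H753
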