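import Vale.Agent.P300.H753.Fin

/-!
P300, block FIN, part 2: topology of the chart domains `Om R p q` and `Omp R p q`.
-/

open Set Topology Filter Complex

namespace Vale.Agent.P300.H753

theorem finite_pow_fibre {p : ℕ} (hp : 0 < p) (y : ℂ) : {z : ℂ | z ^ p = y}.Finite := by
  have h : ({z : ℂ | z ^ p = y}) ⊆ {z : ℂ | (Polynomial.X ^ p - Polynomial.C y).IsRoot z} := by
    intro z hz
    simp only [mem_ofPred_eq] at hz
    simp [Polynomial.IsRoot, hz]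
  refine Finite.subset ?_ h
  exact Polynomial.finite_setOfPred_isRoot (Polynomial.X_pow_sub_C_ne_zero hp y)

/-- The power map has finite fibres. -/
theorem finite_fibre_pw {p q : ℕ} (hp : 0 < p) (hq : 0 < q) (y : ℂ × ℂ) :
    (pw p q ⁻¹' {y}).Finite := by
  refine Finite.subset ((finite_pow_fibre hp y.1).prod (finite_pow_fibre hq y.2)) ?_
  rintro x hx
  simp only [mem_preimage, mem_singleton_iff, pw] at hx
  exact ⟨by simp [← hx], by simp [← hx]⟩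

theorem isOpenMap_pw {p q : ℕ} (hp : 0 < p) (hq : 0 < q) {x : ℂ × ℂ} (h1 : x.1 ≠ 0)
    (h2 : x.2 ≠ 0) {V : Set (ℂ × ℂ)} (hV : V ∈ 𝓝 x) : pw p q '' V ∈ 𝓝 (pw p q x) := by
  rw [← map_pw_nhds hp hq h1 h2]; exact image_mem_map hV

theorem surj_pow {p : ℕ} (hp : 0 < p) (y : ℂ) : ∃ z : ℂ, z ^ p = y := by
  obtain ⟨z, hz⟩ := IsAlgClosed.exists_pow_nat_eq y hp
  exact ⟨z, hz⟩

/-- `pw` is onto. -/
theorem surj_pw {p q : ℕ} (hp : 0 < p) (hq : 0 < q) : Function.Surjective (pw p q) := by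
  intro y
  obtain ⟨z, hz⟩ := surj_pow hp y.1
  obtain ⟨w, hw⟩ := surj_pow hq y.2
  exact ⟨(z, w), Prod.ext hz hw⟩

/-- Stability of `R` under contraction of the coordinates. -/
def Contr (R : Set (ℂ × ℂ)) : Prop :=
  ∀ x ∈ R, ∀ c d : ℝ, 0 < c → c ≤ 1 → 0 < d → d ≤ 1 → ((c : ℂ) * x.1, (d : ℂ) * x.2) ∈ R

/-- The exponential chart of `Omp`. -/
theorem image_exp_Omp (R : Set (ℂ × ℂ)) (p q : ℕ) :
    (fun z : ℂ × ℂ => (exp z.1, exp z.2)) '' {z | ((p : ℂ) * z.1, (q : ℂ) * z.2) ∈ Rt R} =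
      Omp R p q := by
  ext x
  constructor
  · rintro ⟨z, hz, rfl⟩
    exact exp_mem_Omp_iff.2 hz
  · intro hx
    have ex : (exp (log x.1), exp (log x.2)) = x := by
      rw [Complex.exp_log hx.2.1, Complex.exp_log hx.2.2]
    refine ⟨(log x.1, log x.2), ?_, ex⟩
    show ((p : ℂ) * log x.1, (q : ℂ) * log x.2) ∈ Rt R
    rw [← exp_mem_Omp_iff, ex]; exact hx

theorem isPathConnected_Omp {R : Set (ℂ × ℂ)} (hR : IsOpen R) (h0 : (0, 0) ∈ R)
    (hc : Contr R) {p q : ℕ} (hp : 0 < p) (hq : 0 < q) : IsPathConnected (Omp R p q) := by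
  rw [← image_exp_Omp]
  set T : Set (ℂ × ℂ) := {z | ((p : ℂ) * z.1, (q : ℂ) * z.2) ∈ Rt R} with hT
  refine IsPathConnected.image ?_ (by fun_prop)
  obtain ⟨e, he, hball⟩ := Metric.isOpen_iff.1 hR (0, 0) h0
  have hp1 : (1 : ℝ) ≤ p := by exact_mod_cast hp
  have hq1 : (1 : ℝ) ≤ q := by exact_mod_cast hq
  set A : ℝ := min (Real.log e) 0 with hA
  set B : Set (ℂ × ℂ) := {z | z.1.re < A ∧ z.2.re < A} with hB
  have hbound : ∀ (n : ℕ), (1 : ℝ) ≤ n → ∀ w : ℂ, w.re < A → ‖exp (n * w)‖ < e := by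
    intro n hn w hw
    rw [Complex.norm_exp]
    have h1 : ((n : ℂ) * w).re = n * w.re := by simp
    rw [h1, ← Real.exp_log he, Real.exp_lt_exp]
    have h2 : w.re < 0 := lt_of_lt_of_le hw (min_le_right _ _)
    have h3 : w.re < Real.log e := lt_of_lt_of_le hw (min_le_left _ _)
    nlinarith
  have hBT : B ⊆ T := by
    intro z hz
    refine hball ?_
    rw [Metric.mem_ball, dist_eq_norm]
    simp only [Prod.mk_zero_zero, sub_zero, Prod.norm_def]
    exact max_lt (hbound p hp1 _ hz.1) (hbound q hq1 _ hz.2)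
  have hBc : Convex ℝ B := by
    have h1 : B = {z : ℂ × ℂ | z.1.re < A} ∩ {z | z.2.re < A} := rfl
    rw [h1]
    refine Convex.inter ?_ ?_
    · exact (convex_halfSpace_re_lt A).is_linear_preimage (f := Prod.fst)
        (LinearMap.fst ℝ ℂ ℂ).isLinear
    · exact (convex_halfSpace_re_lt A).is_linear_preimage (f := Prod.snd)
        (LinearMap.snd ℝ ℂ ℂ).isLinear
  have hb : ((A - 1 : ℝ) : ℂ) = ((A - 1 : ℝ) : ℂ) := rfl
  set z0 : ℂ × ℂ := (((A - 1 : ℝ) : ℂ), ((A - 1 : ℝ) : ℂ)) with hz0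
  have hz0B : z0 ∈ B := by simp [hz0, hB]
  refine ⟨z0, hBT hz0B, fun {z} hz => ?_⟩
  set N : ℝ := max 0 (max (z.1.re - A + 1) (z.2.re - A + 1)) with hN
  have hN0 : 0 ≤ N := le_max_left _ _
  have hN1 : z.1.re - A + 1 ≤ N := (le_max_left _ _).trans (le_max_right _ _)
  have hN2 : z.2.re - A + 1 ≤ N := (le_max_right _ _).trans (le_max_right _ _)
  set z1 : ℂ × ℂ := (z.1 - (N : ℂ), z.2 - (N : ℂ)) with hz1
  have hz1B : z1 ∈ B := by
    simp only [hB, hz1, mem_ofPred_eq, sub_re, ofReal_re]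
    constructor <;> linarith
  have hj1 : JoinedIn T z0 z1 :=
    ((hBc.isPathConnected ⟨z0, hz0B⟩).joinedIn z0 hz0B z1 hz1B).mono hBT
  have hj2 : JoinedIn T z z1 := by
    refine JoinedIn.of_segment_subset ?_
    rintro y ⟨α, β, hα, hβ, hαβ, rfl⟩
    have hα' : α = 1 - β := by linarith
    subst hα'
    have e1 : (p : ℂ) * ((1 - β) • z + β • z1).1 = p * z.1 + ((-(p * (β * N)) : ℝ) : ℂ) := by
      simp [hz1]; ring
    have e2 : (q : ℂ) * ((1 - β) • z + β • z1).2 = q * z.2 + ((-(q * (β * N)) : ℝ) : ℂ) := by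
      simp [hz1]; ring
    show (exp ((p : ℂ) * ((1 - β) • z + β • z1).1), exp ((q : ℂ) * ((1 - β) • z + β • z1).2)) ∈ R
    rw [e1, e2, Complex.exp_add, Complex.exp_add, ← Complex.ofReal_exp, ← Complex.ofReal_exp,
      mul_comm (exp _), mul_comm (exp _)]
    have hβN : 0 ≤ β * N := mul_nonneg hβ hN0
    refine hc _ hz _ _ (Real.exp_pos _) ?_ (Real.exp_pos _) ?_
    · rw [Real.exp_le_one_iff]; nlinarith
    · rw [Real.exp_le_one_iff]; nlinarith
  exact hj1.trans hj2.symm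

theorem isPreconnected_Omp {R : Set (ℂ × ℂ)} (hR : IsOpen R) (h0 : (0, 0) ∈ R)
    (hc : Contr R) {p q : ℕ} (hp : 0 < p) (hq : 0 < q) : IsPreconnected (Omp R p q) :=
  (isPathConnected_Omp hR h0 hc hp hq).isConnected.isPreconnected

/-- The axes have empty interior: `Omp` is dense in `Om`. -/
theorem dense_ne_ne : Dense {x : ℂ × ℂ | x.1 ≠ 0 ∧ x.2 ≠ 0} := by
  have h : {x : ℂ × ℂ | x.1 ≠ 0 ∧ x.2 ≠ 0} = ({0}ᶜ : Set ℂ) ×ˢ ({0}ᶜ : Set ℂ) := by
    ext x; simp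
  rw [h]
  exact (dense_compl_singleton 0).prod (dense_compl_singleton 0)

theorem Om_subset_closure_Omp {R : Set (ℂ × ℂ)} (hR : IsOpen R) (p q : ℕ) :
    Om R p q ⊆ closure (Omp R p q) := by
  have h : Omp R p q = Om R p q ∩ {x : ℂ × ℂ | x.1 ≠ 0 ∧ x.2 ≠ 0} := rfl
  rw [h]
  exact dense_ne_ne.open_subset_closure_inter (isOpen_Om hR p q)

end Vale.Agent.P300.H753
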