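import Vale.Agent.P300.H921.Mod
import Vale.Agent.P300.H573.CmpCov
import Vale.Agent.P300.H753.Rot

/-!
# P300: a map of covers which is bijective on the local orbits gives a `Hom` of local models

`LHom`: equivariant map `f : S' → S` of the fibres with equal local orders, `g : X0' → X0` over
`U` with `g ∘ L' = L ∘ f`.  Output: `LHom.hom : H573.Models.Hom (D'.models E) (D.models E) g`,
the extension to the completions is a covering map.
-/

open Set Topology Filter Complex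

namespace Vale.Agent.P300.H753

open Vale.Agent.P300.Mod

/-- The orders are unique. -/
theorem Ord.unique {S : Type*} {a b : Equiv.Perm S} {s : S} {p q p' q' : ℕ} (h : Ord a b s p q)
    (h' : Ord a b s p' q') : p = p' ∧ q = q' := by
  constructor
  · apply Nat.dvd_antisymm
    · have h1 := (h.iff (p' : ℤ) 0).1 ((h'.iff (p' : ℤ) 0).2 ⟨dvd_refl _, dvd_zero _⟩)
      exact Int.natCast_dvd_natCast.1 h1.1
    · have h1 := (h'.iff (p : ℤ) 0).1 ((h.iff (p : ℤ) 0).2 ⟨dvd_refl _, dvd_zero _⟩)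
      exact Int.natCast_dvd_natCast.1 h1.1
  · apply Nat.dvd_antisymm
    · have h1 := (h.iff 0 (q' : ℤ)).1 ((h'.iff 0 (q' : ℤ)).2 ⟨dvd_zero _, dvd_refl _⟩)
      exact Int.natCast_dvd_natCast.1 h1.2
    · have h1 := (h'.iff 0 (q : ℤ)).1 ((h.iff 0 (q : ℤ)).2 ⟨dvd_zero _, dvd_refl _⟩)
      exact Int.natCast_dvd_natCast.1 h1.2

/-- The rotation on `Fin 2 → ℂ`. -/
noncomputable def rotE (p q : ℕ) (k l : ℤ) : (Fin 2 → ℂ) ≃ₜ (Fin 2 → ℂ) :=
  toPH.trans ((rot p q k l).trans toPH.symm)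

theorem toP_rotE (p q : ℕ) (k l : ℤ) (x : Fin 2 → ℂ) :
    toP (rotE p q k l x) = rot p q k l (toP x) := toPH.right_inv _

theorem rotE_apply (p q : ℕ) (k l : ℤ) (x : Fin 2 → ℂ) :
    rotE p q k l x = ![exp (2 * Real.pi * I * k / p) * x 0, exp (2 * Real.pi * I * l / q) * x 1] :=
  rfl

variable {R : Set (ℂ × ℂ)} {ι U X0 X0' S S' Y : Type} [TopologicalSpace X0] [TopologicalSpace X0']
  [TopologicalSpace U] [TopologicalSpace Y] {kap : ι → ℂ × ℂ → U} {pr : X0 → U} {pr' : X0' → U}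

/-- A map of covers, bijective on the local orbits. -/
structure LHom (D' : Lifts R kap pr' S') (D : Lifts R kap pr S) (f : S' → S) (g : X0' → X0) :
    Prop where
  ha : ∀ ν s, f (D'.a ν s) = D.a ν (f s)
  hb : ∀ ν s, f (D'.b ν s) = D.b ν (f s)
  hp : ∀ ν s, D'.p ν s = D.p ν (f s)
  hq : ∀ ν s, D'.q ν s = D.q ν (f s)
  hL : ∀ ν, ∀ z ∈ Rt R, ∀ s, g (D'.L ν z.1 z.2 s) = D.L ν z.1 z.2 (f s)
  hpr : ∀ x, pr (g x) = pr' x

namespace LHom

variable {D' : Lifts R kap pr' S'} {D : Lifts R kap pr S} {f : S' → S} {g : X0' → X0}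

section

variable (D' D f)

/-- the map of the pieces -/
noncomputable def sI (i' : D'.I) : D.I := D.mkI i'.1 (f (D'.rep i'))

/-- The exponents of the rotation of a piece. -/
theorem exists_kl (i' : D'.I) : ∃ kl : ℤ × ℤ,
    f (D'.rep i') = (D.a i'.1 ^ kl.1 * D.b i'.1 ^ kl.2) (D.rep (sI D' D f i')) := by
  have h := D.mkI_rep (sI D' D f i')
  obtain ⟨k, l, h1⟩ := D.mkI_eq_iff.1 (show D.mkI i'.1 (D.rep (sI D' D f i')) =
    D.mkI i'.1 (f (D'.rep i')) from h)
  exact ⟨(k, l), h1⟩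

noncomputable def kl (i' : D'.I) : ℤ × ℤ := (exists_kl D' D f i').choose

theorem f_rep (i' : D'.I) : f (D'.rep i') =
    (D.a i'.1 ^ (kl D' D f i').1 * D.b i'.1 ^ (kl D' D f i').2) (D.rep (sI D' D f i')) :=
  (exists_kl D' D f i').choose_spec

end

/-- Constructor: equal lattices instead of equal orders. -/
theorem of_lattice (ha : ∀ ν s, f (D'.a ν s) = D.a ν (f s))
    (hb : ∀ ν s, f (D'.b ν s) = D.b ν (f s))
    (hlat : ∀ ν s, ∀ k l : ℤ, (D.a ν ^ k * D.b ν ^ l) (f s) = f s →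
      (D'.a ν ^ k * D'.b ν ^ l) s = s)
    (hL : ∀ ν, ∀ z ∈ Rt R, ∀ s, g (D'.L ν z.1 z.2 s) = D.L ν z.1 z.2 (f s))
    (hpr : ∀ x, pr (g x) = pr' x) : LHom D' D f g := by
  have hz : ∀ (a : Equiv.Perm S) (a' : Equiv.Perm S'), (∀ s, f (a' s) = a (f s)) →
      ∀ (k : ℤ) (s : S'), f ((a' ^ k) s) = (a ^ k) (f s) := by
    intro a a' h k
    induction k using Int.induction_on with
    | zero => intro s; simp
    | succ k ih =>
      intro s
      rw [zpow_add_one, Equiv.Perm.mul_apply, ih, h, zpow_add_one, Equiv.Perm.mul_apply]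
    | pred k ih =>
      intro s
      have h2 : f (a'⁻¹ s) = a⁻¹ (f s) := by
        apply a.injective
        rw [← h]; simp
      rw [zpow_sub_one, Equiv.Perm.mul_apply, ih, h2, zpow_sub_one, Equiv.Perm.mul_apply]
  have ho : ∀ ν s, Ord (D.a ν) (D.b ν) (f s) (D'.p ν s) (D'.q ν s) := by
    intro ν s
    refine Ord.map (ha ν) (hb ν) (D'.ord ν s) fun k l h => hlat ν s k l ?_
    rw [Equiv.Perm.mul_apply] at h
    rw [Equiv.Perm.mul_apply, ← hz _ _ (hb ν), ← hz _ _ (ha ν)]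
    exact h
  exact ⟨ha, hb, fun ν s => ((ho ν s).unique (D.ord ν (f s))).1,
    fun ν s => ((ho ν s).unique (D.ord ν (f s))).2, hL, hpr⟩

variable (H : LHom D' D f g)
include H

theorem zpow_a (ν : ι) (k : ℤ) : ∀ s, f ((D'.a ν ^ k) s) = (D.a ν ^ k) (f s) := by
  induction k using Int.induction_on with
  | zero => intro s; simp
  | succ k ih =>
    intro s
    rw [zpow_add_one, Equiv.Perm.mul_apply, ih, H.ha, zpow_add_one, Equiv.Perm.mul_apply]
  | pred k ih =>
    intro s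
    have h2 : f ((D'.a ν)⁻¹ s) = (D.a ν)⁻¹ (f s) := by
      apply (D.a ν).injective
      rw [← H.ha]; simp
    rw [zpow_sub_one, Equiv.Perm.mul_apply, ih, h2, zpow_sub_one, Equiv.Perm.mul_apply]

theorem zpow_b (ν : ι) (k : ℤ) : ∀ s, f ((D'.b ν ^ k) s) = (D.b ν ^ k) (f s) := by
  induction k using Int.induction_on with
  | zero => intro s; simp
  | succ k ih =>
    intro s
    rw [zpow_add_one, Equiv.Perm.mul_apply, ih, H.hb, zpow_add_one, Equiv.Perm.mul_apply]
  | pred k ih =>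
    intro s
    have h2 : f ((D'.b ν)⁻¹ s) = (D.b ν)⁻¹ (f s) := by
      apply (D.b ν).injective
      rw [← H.hb]; simp
    rw [zpow_sub_one, Equiv.Perm.mul_apply, ih, h2, zpow_sub_one, Equiv.Perm.mul_apply]

theorem f_orb (ν : ι) (k l : ℤ) (s : S') :
    f ((D'.a ν ^ k * D'.b ν ^ l) s) = (D.a ν ^ k * D.b ν ^ l) (f s) := by
  rw [Equiv.Perm.mul_apply, H.zpow_a, H.zpow_b, Equiv.Perm.mul_apply]

/-- The orders of the representatives agree. -/
theorem orders (i' : D'.I) :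
    D'.pp i' = D.pp (sI D' D f i') ∧ D'.qq i' = D.qq (sI D' D f i') := by
  have h1 : Ord (D.a i'.1) (D.b i'.1) (f (D'.rep i')) (D'.pp i') (D'.qq i') := by
    have := D.ord i'.1 (f (D'.rep i'))
    rw [← H.hp, ← H.hq] at this
    exact this
  have h2 := (D.ord' (sI D' D f i')).orbit (D.node i'.1).comm (kl D' D f i').1 (kl D' D f i').2
  have h3 : Ord (D.a i'.1) (D.b i'.1) (f (D'.rep i')) (D.pp (sI D' D f i'))
      (D.qq (sI D' D f i')) := by
    rw [f_rep D' D f i']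
    exact h2
  exact h1.unique h3

theorem rotE_mem (i' : D'.I) (x : Fin 2 → ℂ) :
    x ∈ OmE R (D'.pp i') (D'.qq i') ↔
      rotE (D.pp (sI D' D f i')) (D.qq (sI D' D f i')) (kl D' D f i').1 (kl D' D f i').2 x ∈
        OmE R (D.pp (sI D' D f i')) (D.qq (sI D' D f i')) := by
  rw [(H.orders i').1, (H.orders i').2]
  show toP x ∈ Om R _ _ ↔ toP (rotE _ _ _ _ x) ∈ Om R _ _
  rw [toP_rotE]
  exact (rot_mem_Om (D.ord' _).p0 (D.ord' _).q0 _ _).symm

/-- the identification of the models -/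
noncomputable def φ (i' : D'.I) : D'.M i' ≃ₜ D.M (sI D' D f i') :=
  (rotE (D.pp (sI D' D f i')) (D.qq (sI D' D f i')) (kl D' D f i').1
    (kl D' D f i').2).subtype (H.rotE_mem i')

theorem coe_φ (i' : D'.I) (x : D'.M i') : (H.φ i' x : Fin 2 → ℂ) =
    rotE (D.pp (sI D' D f i')) (D.qq (sI D' D f i')) (kl D' D f i').1 (kl D' D f i').2 x.1 := rfl

theorem φ_mem_iff (i' : D'.I) (x : D'.M i') :
    H.φ i' x ∈ D.M0 (sI D' D f i') ↔ x ∈ D'.M0 i' := by
  show ((H.φ i' x : Fin 2 → ℂ) 0 ≠ 0 ∧ (H.φ i' x : Fin 2 → ℂ) 1 ≠ 0) ↔ (x.1 0 ≠ 0 ∧ x.1 1 ≠ 0)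
  have h := rot_ne (p := D.pp (sI D' D f i')) (q := D.qq (sI D' D f i')) (kl D' D f i').1
    (kl D' D f i').2 (x := toP x.1)
  exact h

theorem g_h (i' : D'.I) (x : D'.M0 i') :
    g (D'.h i' x) = D.h (sI D' D f i') ⟨H.φ i' x, (H.φ_mem_iff i' x).2 x.2⟩ := by
  have key : ∀ w ∈ Omp R (D'.pp i') (D'.qq i'),
      g (theta (D'.L i'.1) (D'.pp i') (D'.qq i') (D'.rep i') w) =
        theta (D.L i'.1) (D.pp (sI D' D f i')) (D.qq (sI D' D f i')) (D.rep (sI D' D f i'))
          (rot (D.pp (sI D' D f i')) (D.qq (sI D' D f i')) (kl D' D f i').1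
            (kl D' D f i').2 w) := by
    rw [(H.orders i').1, (H.orders i').2]
    intro w hw
    exact theta_map (L' := D'.L i'.1) (D.node i'.1) (F := g) (f := f)
      (p := D.pp (sI D' D f i')) (q := D.qq (sI D' D f i')) (H.hL i'.1)
      (s' := D'.rep i') (s := D.rep (sI D' D f i')) (D.ord' (sI D' D f i'))
      (f_rep D' D f i') hw
  exact key _ (D'.mem_Omp x)

/-- **The map of local models.** -/
noncomputable def hom (E : YData R kap Y) :
    H573.Models.Hom (D'.models E) (D.models E) g where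
  s i' := sI D' D f i'
  φ i' := H.φ i'
  φ_mem i' z := (H.φ_mem_iff i' z.1).2 z.2
  φ_h i' z := H.g_h i' z
  cov i x' hx := by
    -- `x'` lies over the region of `i`
    obtain ⟨z, hz⟩ := hx
    have h1 : pr' x' = kap i.1 (pw (D.pp i) (D.qq i) (toP z.1.1)) := by
      rw [← H.hpr, ← hz]; exact D.pr_h i z
    have h2 : E.inc (pr' x') ∈ E.kY i.1 '' R := by
      refine ⟨_, (pw_mem_Rp (D.mem_Omp z)).1, ?_⟩
      rw [h1, E.inc_kap _ _ (pw_mem_Rp (D.mem_Omp z))]
    obtain ⟨i', hi', x, hx'⟩ := D'.cov_h E x' i.1 h2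
    refine ⟨i', ?_, x, hx'⟩
    by_contra hne
    have h3 := D.disj_h (i := sI D' D f i') (j := i) hi' hne
    refine h3.le_bot ⟨⟨⟨H.φ i' x, (H.φ_mem_iff i' x).2 x.2⟩, ?_⟩, ⟨z, hz⟩⟩
    rw [← H.g_h, hx']
  disj i' j' h hne := by
    have h1 : (sI D' D f i').1 = (sI D' D f j').1 := congrArg (fun i : D.I => i.1) h
    exact D'.disj_h h1 hne

theorem hom_s (E : YData R kap Y) (i' : D'.I) : (H.hom E).s i' = sI D' D f i' := rfl

theorem hom_φ (E : YData R kap Y) (i' : D'.I) (x : D'.M i') : (H.hom E).φ i' x = H.φ i' x := rfl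

/-- The regular points correspond. -/
theorem hom_M0 (E : YData R kap Y) (i' : (D'.models E).I) (x : (D'.models E).M i') :
    (H.hom E).φ i' x ∈ (D.models E).M0 ((H.hom E).s i') ↔ x ∈ (D'.models E).M0 i' :=
  H.φ_mem_iff i' x

/-- Every piece is met if `f` is onto. -/
theorem surjective_s (hf : Function.Surjective f) (E : YData R kap Y) :
    Function.Surjective (H.hom E).s := by
  intro i
  obtain ⟨s', hs'⟩ := hf (D.rep i)
  refine ⟨D'.mkI i.1 s', ?_⟩
  show D.mkI i.1 (f (D'.rep (D'.mkI i.1 s'))) = i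
  obtain ⟨k, l, h⟩ := D'.rep_mkI i.1 s'
  rw [h, H.f_orb, hs']
  conv_rhs => rw [← D.mkI_rep i]
  exact (D.mkI_eq_iff.2 ⟨k, l, rfl⟩).symm

variable [T2Space Y] [LocallyCompactSpace Y]

theorem isCoveringMap_ext (E : YData R kap Y) : IsCoveringMap (H.hom E).ext :=
  (H.hom E).isCoveringMap_ext

theorem surjective_ext (hf : Function.Surjective f) (E : YData R kap Y) :
    Function.Surjective (H.hom E).ext :=
  (H.hom E).surjective_ext (H.surjective_s hf E)

/-- The extension lies over `Y`. -/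
theorem proj_ext (E : YData R kap Y) (x : (D'.models E).Cmp) :
    (D.models E).proj ((H.hom E).ext x) = (D'.models E).proj x := by
  have hc : Continuous fun x => (D.models E).proj ((H.hom E).ext x) :=
    (D.models E).continuous_proj.comp (H.hom E).continuous_ext
  have hd := (D'.models E).denseRange_incl
  refine congrFun (hd.equalizer hc (D'.models E).continuous_proj ?_) x
  funext x'
  simp only [Function.comp_apply]
  rw [(H.hom E).ext_incl, (D.models E).proj_incl, (D'.models E).proj_incl, H.hpr]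

end LHom

end Vale.Agent.P300.H753
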