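import Vale.Agent.P300.H753.Hom
import Vale.Agent.P300.H921.TorMod
import Vale.Agent.P300.TOR.Spec
import Vale.Agent.P300.H708.Sets

/-!
# P300: the lifts of a `G`-set and the maps of `G`-sets with equal local orders

`T : NODE.TorData A` is the interface of block NODE.  `POrds A F`: product stabilisers of all the
points of the `G`-set `F` in the fifteen charts.  `torLifts T P : Lifts H142.R kapU (T.pr F) F`;
`torLHom T f P' P h : LHom (torLifts T P') (torLifts T P) f (T.map f)` for an equivariant map `f`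
which preserves the orders.
-/

open Set Topology Filter Complex

namespace Vale.Agent.P300.H753

open Vale.Agent.P300.Mod

variable {G : Type} [Group G] {A : Tor.Arr G}

/-- Local orders of all the points of a `G`-set in the fifteen charts. -/
structure POrds (A : Tor.Arr G) (F : Type) [MulAction G F] where
  p : Fin 15 → F → ℕ
  q : Fin 15 → F → ℕ
  ord : ∀ ν s, H708.POrd (A.wa ν.castSucc) (A.wb ν.castSucc) s (p ν s) (q ν s)

/-- A choice of the orders. -/
noncomputable def POrds.of {F : Type} [MulAction G F]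
    (h : ∀ (ν : Fin 15) (s : F), ∃ p q, H708.POrd (A.wa ν.castSucc) (A.wb ν.castSucc) s p q) :
    POrds A F where
  p ν s := (h ν s).choose
  q ν s := (h ν s).choose_spec.choose
  ord ν s := (h ν s).choose_spec.choose_spec

/-- The lifts of the covering of a `G`-set. -/
noncomputable def torLifts (T : NODE.TorData A) {F : Type} [MulAction G F] (P : POrds A F) :
    Lifts H142.R kapU (T.pr F) F :=
  liftsOf (T.cov F) (fun ν => A.wa ν.castSucc) (fun ν => A.wb ν.castSucc)
    (fun ν z s => T.L ν.castSucc F z s)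
    (fun ν s => T.L_cont ν.castSucc F s)
    (fun ν s z hz => by rw [T.L_pr ν.castSucc F s z hz, NODE.kap_castSucc])
    (fun ν s s' z hz => T.L_inj ν.castSucc F s s' z hz)
    (fun ν z hz y hy => T.L_surj ν.castSucc F z hz y (by rw [hy, NODE.kap_castSucc]))
    (fun ν s z hz => T.L_u ν.castSucc F s z hz)
    (fun ν s z hz => T.L_v ν.castSucc F s z hz)
    P.p P.q (fun ν s => (P.ord ν s).1) (fun ν s => (P.ord ν s).2.1) (fun ν s => (P.ord ν s).2.2)

theorem torLifts_L (T : NODE.TorData A) {F : Type} [MulAction G F] (P : POrds A F) (ν : Fin 15)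
    (z w : ℂ) (s : F) : (torLifts T P).L ν z w s = T.L ν.castSucc F (z, w) s := rfl

theorem torLifts_a (T : NODE.TorData A) {F : Type} [MulAction G F] (P : POrds A F) (ν : Fin 15)
    (s : F) : (torLifts T P).a ν s = A.wa ν.castSucc • s := rfl

theorem torLifts_b (T : NODE.TorData A) {F : Type} [MulAction G F] (P : POrds A F) (ν : Fin 15)
    (s : F) : (torLifts T P).b ν s = A.wb ν.castSucc • s := rfl

/-- **A map of `G`-sets with equal local orders.** -/
theorem torLHom (T : NODE.TorData A) {F' F : Type} [MulAction G F'] [MulAction G F]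
    (f : F' →[G] F) (P' : POrds A F') (P : POrds A F)
    (h : ∀ (ν : Fin 15) (s : F') (p q : ℕ),
      H708.POrd (A.wa ν.castSucc) (A.wb ν.castSucc) (f s) p q ↔
        H708.POrd (A.wa ν.castSucc) (A.wb ν.castSucc) s p q) :
    LHom (torLifts T P') (torLifts T P) f (T.map f) where
  ha _ s := map_smul f _ s
  hb _ s := map_smul f _ s
  hp ν s := ((P'.ord ν s).unique ((h ν s _ _).1 (P.ord ν (f s)))).1
  hq ν s := ((P'.ord ν s).unique ((h ν s _ _).1 (P.ord ν (f s)))).2
  hL ν z hz s := T.L_map ν.castSucc f s z hz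
  hpr x := T.map_pr f x

/-- The identity. -/
theorem LHom.refl {R : Set (ℂ × ℂ)} {ι U X0 S : Type} [TopologicalSpace X0] [TopologicalSpace U]
    {kap : ι → ℂ × ℂ → U} {pr : X0 → U} (D : Lifts R kap pr S) : LHom D D id id where
  ha _ _ := rfl
  hb _ _ := rfl
  hp _ _ := rfl
  hq _ _ := rfl
  hL _ _ _ _ := rfl
  hpr _ := rfl

/-- Composition. -/
theorem LHom.comp {R : Set (ℂ × ℂ)} {ι U X0 X1 X2 S0 S1 S2 : Type} [TopologicalSpace X0]
    [TopologicalSpace X1] [TopologicalSpace X2] [TopologicalSpace U] {kap : ι → ℂ × ℂ → U}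
    {pr0 : X0 → U} {pr1 : X1 → U} {pr2 : X2 → U} {D0 : Lifts R kap pr0 S0}
    {D1 : Lifts R kap pr1 S1} {D2 : Lifts R kap pr2 S2} {f : S2 → S1} {g : X2 → X1}
    {f' : S1 → S0} {g' : X1 → X0} (H' : LHom D1 D0 f' g') (H : LHom D2 D1 f g) :
    LHom D2 D0 (f' ∘ f) (g' ∘ g) where
  ha ν s := by simp only [Function.comp_apply, H.ha, H'.ha]
  hb ν s := by simp only [Function.comp_apply, H.hb, H'.hb]
  hp ν s := by simp only [Function.comp_apply, H.hp, H'.hp]
  hq ν s := by simp only [Function.comp_apply, H.hq, H'.hq]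
  hL ν z hz s := by simp only [Function.comp_apply, H.hL ν z hz, H'.hL ν z hz]
  hpr x := by simp only [Function.comp_apply, H.hpr, H'.hpr]

end Vale.Agent.P300.H753
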